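import Vale.Agent.P106.R.E.Bx

/-! # P106 / R, copy of P122 / H563 : the least counting excess (helper563)

`enS` : the infimum of the exponents `e ≥ 0` such that the density of `D i` is at most `2 ^ ((e + ε) L)` for all `ε`.
`not_dens` : below it the density is not bounded; `dens_enS` : it is attained. -/

set_option autoImplicit false

namespace Vale.Agent.P106.R.H563

open Filter Topology Finset Vale.Agent.P127 Vale.Agent.P127.U Vale.Agent.P106.R.C2 Vale.Agent.P106.R.E

/-- one plank has density `1` -/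
theorem one_le_of_dens {s : Sl} {n c : ℕ} {D : Set Nd} {lam : ℝ} (hD : Dens s n c D lam) {S : Nd}
    (hS : S ∈ D) : 1 ≤ lam := by
  have h := hD (own s n c S) S.T {S} (own_okb _ _ _ _) fun S' hS' => by
    rw [Finset.mem_singleton] at hS'
    subst hS'
    exact ⟨hS, rfl, own_inP _ _ _ _⟩
  rw [Finset.card_singleton, own_bvol, mul_one] at h
  exact_mod_cast h

/-- the set of the admissible exponents -/
def enSet (s : ℕ → Sl) (n : ℕ → ℕ) (c : ℕ) (D : ℕ → Set Nd) (L : ℕ → ℕ) : Set ℝ :=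
  {e | 0 ≤ e ∧ ∀ ε : ℝ, 0 < ε → ∀ᶠ i in (uf : Filter ℕ), Dens (s i) (n i) c (D i) ((2 : ℝ) ^ ((e + ε) * L i))}

variable {s : ℕ → Sl} {n : ℕ → ℕ} {c : ℕ} {D : ℕ → Set Nd} {L : ℕ → ℕ}

/-- the infimum belongs to the set -/
theorem sInf_mem (hne : (enSet s n c D L).Nonempty) : sInf (enSet s n c D L) ∈ enSet s n c D L := by
  have hb : BddBelow (enSet s n c D L) := ⟨0, fun e he => he.1⟩
  refine ⟨le_csInf hne fun e he => he.1, fun ε hε => ?_⟩
  obtain ⟨e, he, hlt⟩ := exists_lt_of_csInf_lt hne (lt_add_of_pos_right (sInf (enSet s n c D L)) (half_pos hε))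
  filter_upwards [he.2 (ε / 2) (half_pos hε)] with i hi
  refine Dens.mono hi ?_
  refine Real.rpow_le_rpow_of_exponent_le (by norm_num) ?_
  exact mul_le_mul_of_nonneg_right (by linarith) (Nat.cast_nonneg _)

/-- below the infimum the densities are not bounded -/
theorem not_dens (hL : Tendsto L (uf : Filter ℕ) atTop) (hD : ∀ᶠ i in (uf : Filter ℕ), (D i).Nonempty) (ε : ℝ)
    (hε : 0 < ε) : ∀ᶠ i in (uf : Filter ℕ),
      ¬ Dens (s i) (n i) c (D i) ((2 : ℝ) ^ ((sInf (enSet s n c D L) - ε) * L i)) := by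
  have hb : BddBelow (enSet s n c D L) := ⟨0, fun e he => he.1⟩
  set e0 := sInf (enSet s n c D L) with he0
  rcases lt_or_ge (e0 - ε) 0 with h | h
  · filter_upwards [hD, hL.eventually_gt_atTop 0] with i ⟨S, hS⟩ hi hcon
    have h1 := one_le_of_dens hcon hS
    have hi' : (0 : ℝ) < L i := by exact_mod_cast hi
    have h2 : (2 : ℝ) ^ ((e0 - ε) * L i) < 1 :=
      Real.rpow_lt_one_of_one_lt_of_neg (by norm_num) (mul_neg_of_neg_of_pos h hi')
    linarith
  · have h1 : e0 - ε ∉ enSet s n c D L := fun hmem => by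
      have := csInf_le hb hmem
      linarith
    have h2 : ∃ ε' : ℝ, 0 < ε' ∧
        ¬ ∀ᶠ i in (uf : Filter ℕ), Dens (s i) (n i) c (D i) ((2 : ℝ) ^ ((e0 - ε + ε') * L i)) := by
      by_contra hcon
      push Not at hcon
      exact h1 ⟨h, hcon⟩
    obtain ⟨ε', hε', h3⟩ := h2
    rw [← Ultrafilter.eventually_not] at h3
    filter_upwards [h3] with i hi hcon
    refine hi (Dens.mono hcon ?_)
    refine Real.rpow_le_rpow_of_exponent_le (by norm_num) ?_
    exact mul_le_mul_of_nonneg_right (by linarith) (Nat.cast_nonneg _)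

end Vale.Agent.P106.R.H563
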