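import Vale.Agent.P106.R.H610.Seq
import Vale.Agent.P106.R.H563.Fin
import Vale.Agent.P106.R.H563.En

/-! # P106 / R, copy of P122 / H563 : RGviol, the violation in the numbers of a regular system (helper563) -/

set_option autoImplicit false

namespace Vale.Agent.P106.R.H563

open Filter Topology Finset Vale.Agent.P127 Vale.Agent.P127.Stk Vale.Agent.P127.U Vale.Agent.P127.U.Sys
  Vale.Agent.P106.R.C2 Vale.Agent.P106.R.E Vale.Agent.P106.R.H610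

variable {K : ℕ} {Z : CS K}

/-- the support of the node of level `c` -/
theorem supp_N (W : VS Z) {c : ℕ} (hc : c ≤ K) (i : ℕ) :
    {S | ∃ ω, 0 < (W.flg.S.P i).w ω ∧ W.flg.N c i ω = S} = ((W.V i).D (Z.F i).s (Z.n i) c : Set Nd) := by
  ext S
  constructor
  · rintro ⟨ω, -, rfl⟩
    exact nd_D (W.ok i) hc ω.2
  · intro hS
    have h1 := wt_pos (W.ok i) hc (by exact_mod_cast hS : S ∈ (W.V i).D (Z.F i).s (Z.n i) c)
    unfold wt at h1
    rw [card_pos] at h1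
    obtain ⟨f, hf⟩ := h1
    rw [mem_filter] at hf
    exact ⟨⟨f, hf.1⟩, W.sys_pos i _, hf.2⟩

/-- at least `2 ^ (r L)` nodes -/
theorem card_D_ge (W : VS Z) {c : ℕ} (hc : c ≤ K) {r : ℝ} (h : Unf W.flg.S (W.flg.N c) r) (ε : ℝ) (hε : 0 < ε) :
    ∀ᶠ i in (uf : Filter ℕ), (2 : ℝ) ^ ((r - ε) * (K * Z.n i)) ≤ ((W.V i).D (Z.F i).s (Z.n i) c).card := by
  classical
  filter_upwards [h ε hε] with i hi
  have h1 := (W.flg.S.P i).sum_pr_image (W.flg.N c i)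
  have h2 : (W.flg.S.L i : ℝ) = K * Z.n i := by
    rw [W.flg.L_eq i]
    push_cast
    rfl
  have h3 : ((W.flg.S.L i : ℕ) : ℝ) = K * Z.n i := h2
  have h4 : img (W.flg.N c i) ⊆ (W.V i).D (Z.F i).s (Z.n i) c := by
    intro S hS
    rw [mem_img] at hS
    obtain ⟨ω, rfl⟩ := hS
    exact nd_D (W.ok i) hc ω.2
  have h5 : (1 : ℝ) ≤ ((W.V i).D (Z.F i).s (Z.n i) c).card * (2 : ℝ) ^ ((-r + ε) * (K * Z.n i)) := by
    rw [← h1]
    calc ∑ x ∈ img (W.flg.N c i), (W.flg.S.P i).pr (W.flg.N c i) x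
        ≤ ∑ _x ∈ img (W.flg.N c i), (2 : ℝ) ^ ((-r + ε) * (K * Z.n i)) := by
          refine sum_le_sum fun S hS => ?_
          rw [mem_img] at hS
          obtain ⟨ω, rfl⟩ := hS
          rw [← h3]
          exact hi ω
      _ = (img (W.flg.N c i)).card * (2 : ℝ) ^ ((-r + ε) * (K * Z.n i)) := by rw [sum_const, nsmul_eq_mul]
      _ ≤ _ := by
          have : ((img (W.flg.N c i)).card : ℝ) ≤ ((W.V i).D (Z.F i).s (Z.n i) c).card := by
            exact_mod_cast card_le_card h4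
          gcongr
  have h6 : (2 : ℝ) ^ ((r - ε) * (K * Z.n i)) * (2 : ℝ) ^ ((-r + ε) * (K * Z.n i)) = 1 := by
    rw [← Real.rpow_add (by norm_num), ← add_mul]
    simp
  have h7 : (0 : ℝ) < (2 : ℝ) ^ ((-r + ε) * (K * Z.n i)) := by positivity
  refine le_of_mul_le_mul_right ?_ h7
  rw [h6]
  exact h5

/-- at most `2 ^ (r L)` starting cells -/
theorem card_X_le (W : VS Z) {r : ℝ} (h : Cnt W.flg.S W.flg.x (one (S := W.flg.S)) r) (ε : ℝ) (hε : 0 < ε) :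
    ∀ᶠ i in (uf : Filter ℕ), ((W.V i).X.card : ℝ) ≤ (2 : ℝ) ^ ((r + ε) * (K * Z.n i)) := by
  filter_upwards [h ε hε] with i hi
  have h2 : ((W.flg.S.L i : ℕ) : ℝ) = K * Z.n i := by
    rw [W.flg.L_eq i]
    push_cast
    rfl
  obtain ⟨f, hf⟩ := W.fl_ne i
  obtain ⟨U, hU, hU2⟩ := hi ⟨f, hf⟩ (W.sys_pos i _)
  rw [h2] at hU
  refine le_trans ?_ hU
  have h3 : (W.V i).X ⊆ U := by
    intro x hx
    have h4 : x ∈ (W.V i).D (Z.F i).s (Z.n i) 0 := hx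
    have h5 : x ∈ {S | ∃ ω, 0 < (W.flg.S.P i).w ω ∧ W.flg.N 0 i ω = S} := by
      rw [supp_N W (Nat.zero_le K) i]
      exact_mod_cast h4
    obtain ⟨ω, hω, rfl⟩ := h5
    exact hU2 ω hω rfl
  exact_mod_cast card_le_card h3

/-- **RGviol** -/
theorem rg_viol {p : ℝ} (hp : 1 ≤ p) {W W' : VS Z} (hle : W'.Le W) {Λ Q : ℕ → ℝ} {δ : ℝ} (hΛ : ∀ i, KTop (Z.F i) (Λ i))
    (hQ : ∀ i, ∀ U : Finset Nd, ∑ S ∈ U, (Z.F i).a K S ^ 2 ≤ Q i)
    (h0 : ∀ ε : ℝ, 0 < ε → ∀ᶠ i in (uf : Filter ℕ),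
      (2 : ℝ) ^ ((δ - ε) * (K * Z.n i)) * rt p (Λ i) * 2 ^ (4 * K * Z.n i) * Q i ≤ (W.V i).X.card * pw p (W.a i 0))
    {J θ H e : ℕ → ℝ} (hx : Cnt W'.flg.S W'.flg.x (one (S := W'.flg.S)) (H 0)) (hN : Unf W'.flg.S (W'.flg.N K) (H K))
    (hθ : ∀ c, c < K → ∀ ε : ℝ, 0 < ε → ∀ᶠ i in (uf : Filter ℕ),
      W'.a i c ≤ (2 : ℝ) ^ ((J c / 2 + θ c + ε) * (K * Z.n i)) * W'.a i (c + 1))
    (he0 : 0 ≤ e 0) (heK : e K ≤ sInf (enSet (fun i => (Z.F i).s) Z.n K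
      (fun i => ((W'.V i).D (Z.F i).s (Z.n i) K : Set Nd)) (fun i => K * Z.n i))) :
    nV K H e 0 + (p + 1) * nE K J θ H K + p * δ ≤ nV K H e K := by
  have hK := Z.K1
  have hKp : (0 : ℝ) < K := by exact_mod_cast hK
  have haeq : ∀ᶠ i in (uf : Filter ℕ), W'.a i = W.a i := by
    first
      | exact hle.a_eq
      | exact Eventually.of_forall hle.a_eq
  refine viol_num hp hK he0 ?_
  have hLtop : Tendsto (fun i => K * Z.n i) (uf : Filter ℕ) atTop :=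
    Z.ntop.const_mul_atTop' (lt_of_lt_of_le Nat.zero_lt_one hK)
  have hDne : ∀ᶠ i in (uf : Filter ℕ), ((W'.V i).D (Z.F i).s (Z.n i) K : Set Nd).Nonempty := by
    refine Eventually.of_forall fun i => ?_
    rw [← supp_N W' le_rfl i]
    obtain ⟨f, hf⟩ := W'.fl_ne i
    exact ⟨_, ⟨f, hf⟩, W'.sys_pos i _, rfl⟩
  refine viol_lim hp hK Z.ntop (F := Z.F) (V := W'.V) (ρ := W'.ρ) (a := W'.a) (J := W'.J) (Λ := Λ) (Q := Q)
    (Eventually.of_forall W'.ok) (Eventually.of_forall hΛ) (Eventually.of_forall hQ) ?_ ?_ ?_ ?_ ?_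
  · intro ε hε
    have hε2 : 0 < ε / 2 := half_pos hε
    filter_upwards [h0 (ε / 2) hε2, haeq, hle.big (K * (ε / 2)) (by positivity)] with i h1 h2 h3
    have h4 : (0 : ℝ) < (W.V i).X.card := by exact_mod_cast (W.ne i).card_pos
    rw [le_div_iff₀ h4] at h3
    have ha := (W'.ok i).apos 0 (Nat.zero_le K)
    have hpa := pw_nonneg p ha.le
    have h5 : ((W'.V i).X.card : ℝ) * pw p (W'.a i 0) ≤ ∑ x ∈ (W'.V i).X, pw p ((Z.F i).a 0 x) := by
      calc ((W'.V i).X.card : ℝ) * pw p (W'.a i 0) = ∑ x ∈ (W'.V i).X, pw p (W'.a i 0) := by rw [sum_const, nsmul_eq_mul]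
        _ ≤ _ := sum_le_sum fun x hx => pw_mono hp ha.le ((W'.ok i).amp 0 (Nat.zero_le K) x hx).1
    refine le_trans ?_ h5
    rw [← h2] at h1
    have e1 : (2 : ℝ) ^ ((δ - ε) * (K * Z.n i)) = 2 ^ (-(K * (ε / 2) * Z.n i)) * 2 ^ ((δ - ε / 2) * (K * Z.n i)) := by
      rw [← Real.rpow_add (by norm_num)]
      congr 1
      ring
    calc _ = 2 ^ (-(K * (ε / 2) * Z.n i)) *
          ((2 : ℝ) ^ ((δ - ε / 2) * (K * Z.n i)) * rt p (Λ i) * 2 ^ (4 * K * Z.n i) * Q i) := by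
            rw [e1]
            ring
      _ ≤ 2 ^ (-(K * (ε / 2) * Z.n i)) * ((W.V i).X.card * pw p (W'.a i 0)) := by gcongr
      _ = (2 ^ (-(K * (ε / 2) * Z.n i)) * (W.V i).X.card) * pw p (W'.a i 0) := by ring
      _ ≤ (W'.V i).X.card * pw p (W'.a i 0) := by gcongr
  · exact card_X_le W' hx
  · exact card_D_ge W' le_rfl hN
  · exact amp_tel (Eventually.of_forall fun i => ((W'.ok i).apos 0 (Nat.zero_le K)).le) hθ K le_rfl
  · intro ε hε
    have h1 := not_dens (s := fun i => (Z.F i).s) (n := Z.n) (c := K) (L := fun i => K * Z.n i) hLtop hDne ε hε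
    filter_upwards [h1] with i hi hcon
    refine hi (Dens.mono hcon ?_)
    refine Real.rpow_le_rpow_of_exponent_le (by norm_num) ?_
    push_cast
    exact mul_le_mul_of_nonneg_right (by linarith) (by positivity)

end Vale.Agent.P106.R.H563
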